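import Vale.Agent.P260.H493.Defs

/-!
# P260, module M3: half-spaces of components of bands (interface between M3a and M3b)
-/

namespace Vale.Agent.P260.H156

open Vale.Agent.P260.H493

variable {Γ : Type} [Group Γ]

/-- The band of radius `R` around the level `t`. -/
def band (θ : Γ → ℝ) (R t : ℝ) (y : Γ) : Prop := |θ y - t| ≤ R

/-- `H` is the half-space above the component of `k` in the band around the level `t`. -/
structure IsHalf (S : Finset Γ) (θ : Γ → ℝ) (R t : ℝ) (k : Γ) (H : Set Γ) : Prop where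
  in_self : ∀ x, Conn S (band θ R t) k x → (x ∈ H ↔ t ≤ θ x)
  in_next : ∀ x, Conn S (band θ R t) k x → ∀ s ∈ S, (x * s ∈ H ↔ t ≤ θ (x * s))
  out : ∀ x, ¬ Conn S (band θ R t) k x → ∀ s ∈ S, (x * s ∈ H ↔ x ∈ H)

/-- M3a: existence of half-spaces. -/
def StmtHalf : Prop := ∀ (Γ : Type) [Group Γ] (S : Finset Γ) (N : ℕ) (θ : Γ → ℝ),
  GenSet S → FP2 S N → IsChar θ →
  ∃ R : ℝ, (∀ s ∈ S, |θ s| ≤ R) ∧ ∀ (t : ℝ) (k : Γ), |θ k - t| ≤ R → ∃ H : Set Γ,
    IsHalf S θ R t k H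

end Vale.Agent.P260.H156
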