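import Vale.Agent.P260.H156.Half

/-!
# P260, module M3b, part 1: connectivity, uniqueness, translation and nesting of half-spaces
-/

namespace Vale.Agent.P260.H156

open Vale.Agent.P260.H493

variable {Γ : Type} [Group Γ]

/-! ### Connectivity -/

section conn

variable {S : Finset Γ} {Q Q' : Γ → Prop} {x y z : Γ}

lemma conn_refl (h : Q x) : Conn S Q x x := ⟨Relation.ReflTransGen.refl, h⟩

lemma conn_trans (h : Conn S Q x y) (h' : Conn S Q y z) : Conn S Q x z :=
  ⟨h.1.trans h'.1, h.2⟩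

lemma conn_right (h : Conn S Q x y) : Q y := by
  obtain ⟨h1, h2⟩ := h
  induction h1 with
  | refl => exact h2
  | tail _ hbc _ => exact hbc.2

lemma conn_step (h : Conn S Q x y) {s : Γ} (hs : s ∈ S) (hq : Q (y * s)) :
    Conn S Q x (y * s) := ⟨h.1.tail ⟨⟨s, hs, rfl⟩, hq⟩, h.2⟩

lemma conn_ind {P : Γ → Prop} (hx : P x)
    (hst : ∀ b, Conn S Q x b → P b → ∀ s ∈ S, Q (b * s) → P (b * s)) (h : Conn S Q x y) : P y := by
  obtain ⟨h1, h2⟩ := h
  induction h1 with
  | refl => exact hx
  | tail hab hbc ih =>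
    obtain ⟨⟨s, hs, rfl⟩, hq⟩ := hbc
    exact hst _ ⟨hab, h2⟩ ih s hs hq

lemma conn_symm (hinv : ∀ s ∈ S, s⁻¹ ∈ S) (h : Conn S Q x y) : Conn S Q y x := by
  refine conn_ind (P := fun b => Conn S Q b x) (conn_refl h.2) ?_ h
  intro b hb hbx s hs hq
  have h1 : Conn S Q (b * s) (b * s * s⁻¹) :=
    conn_step (conn_refl hq) (hinv s hs) (by simpa using conn_right hb)
  rw [mul_inv_cancel_right] at h1
  exact conn_trans h1 hbx

lemma conn_mono (hQ : ∀ z, Q z → Q' z) (h : Conn S Q x y) : Conn S Q' x y := by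
  refine conn_ind (P := fun b => Conn S Q' x b) (conn_refl (hQ _ h.2)) ?_ h
  intro b _ hxb s hs hq
  exact conn_step hxb hs (hQ _ hq)

lemma conn_smul (g : Γ) (hQ : ∀ z, Q z → Q' (g * z)) (h : Conn S Q x y) :
    Conn S Q' (g * x) (g * y) := by
  refine conn_ind (P := fun b => Conn S Q' (g * x) (g * b)) (conn_refl (hQ _ h.2)) ?_ h
  intro b _ hxb s hs hq
  have := conn_step hxb hs (by rw [mul_assoc]; exact hQ _ hq)
  rwa [mul_assoc] at this

lemma step_ind (hS : GenSet S) {P : Γ → Prop} (hx : P x)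
    (hst : ∀ y, P y → ∀ s ∈ S, P (y * s)) (y : Γ) : P y := by
  have key : ∀ g : Γ, P (x * g) := by
    intro g
    have hg : g ∈ Subgroup.closure (S : Set Γ) := by rw [hS.gen]; trivial
    induction hg using Subgroup.closure_induction_right with
    | one => simpa using hx
    | mul_right a _ s hs ih =>
      have := hst _ ih s (by simpa using hs)
      rwa [mul_assoc] at this
    | mul_inv_cancel a _ s hs ih =>
      have := hst _ ih s⁻¹ (hS.inv s (by simpa using hs))
      rwa [mul_assoc] at this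
  have := key (x⁻¹ * y)
  rwa [mul_inv_cancel_left] at this

end conn

/-! ### Characters -/

lemma char_one {θ : Γ → ℝ} (hθ : IsChar θ) : θ 1 = 0 := by
  have := hθ 1 1
  rw [mul_one] at this
  linarith

lemma char_inv {θ : Γ → ℝ} (hθ : IsChar θ) (g : Γ) : θ g⁻¹ = -θ g := by
  have := hθ g g⁻¹
  rw [mul_inv_cancel, char_one hθ] at this
  linarith

lemma char_zpow {θ : Γ → ℝ} (hθ : IsChar θ) (g : Γ) (n : ℤ) : θ (g ^ n) = n * θ g := by
  induction n using Int.induction_on with
  | zero => simp [char_one hθ]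
  | succ n ih =>
    rw [zpow_add_one, hθ, ih]
    push_cast
    ring
  | pred n ih =>
    rw [zpow_sub_one, hθ, ih, char_inv hθ]
    push_cast
    ring

/-! ### Half-spaces -/

section half

variable {S : Finset Γ} {θ : Γ → ℝ} {R t t' : ℝ} {k k' : Γ} {H H' : Set Γ}

lemma band_smul (hθ : IsChar θ) (g y : Γ) : band θ R (t + θ g) (g * y) ↔ band θ R t y := by
  unfold band
  rw [hθ]
  have : θ g + θ y - (t + θ g) = θ y - t := by ring
  rw [this]

lemma conn_band_smul (hθ : IsChar θ) (g x y : Γ) :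
    Conn S (band θ R (t + θ g)) (g * x) (g * y) ↔ Conn S (band θ R t) x y := by
  constructor
  · intro h
    have := conn_smul (Q' := band θ R t) g⁻¹ (fun z hz => by
      rw [← band_smul hθ g, mul_inv_cancel_left]
      exact hz) h
    simpa using this
  · exact conn_smul g fun z hz => (band_smul hθ g z).2 hz

lemma half_unique (hS : GenSet S) (hk : band θ R t k) (h : IsHalf S θ R t k H)
    (h' : IsHalf S θ R t k H') : H = H' := by
  ext y
  refine step_ind (P := fun y => y ∈ H ↔ y ∈ H') hS (x := k) ?_ ?_ y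
  · rw [h.in_self k (conn_refl hk), h'.in_self k (conn_refl hk)]
  · intro y hy s hs
    by_cases hc : Conn S (band θ R t) k y
    · rw [h.in_next y hc s hs, h'.in_next y hc s hs]
    · rw [h.out y hc s hs, h'.out y hc s hs]
      exact hy

lemma half_congr (hS : GenSet S) (hc : Conn S (band θ R t) k k') (h : IsHalf S θ R t k H) :
    IsHalf S θ R t k' H where
  in_self x hx := h.in_self x (conn_trans hc hx)
  in_next x hx := h.in_next x (conn_trans hc hx)
  out x hx := h.out x fun hx' => hx (conn_trans (conn_symm hS.inv hc) hx')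

lemma half_smul (hθ : IsChar θ) (g : Γ) (h : IsHalf S θ R t k H) :
    IsHalf S θ R (t + θ g) (g * k) {x | g⁻¹ * x ∈ H} where
  in_self x hx := by
    have hx' : Conn S (band θ R t) k (g⁻¹ * x) := by
      rw [← conn_band_smul hθ g, mul_inv_cancel_left]
      exact hx
    rw [Set.mem_ofPred_eq, h.in_self _ hx', hθ, char_inv hθ]
    constructor <;> intro <;> linarith
  in_next x hx s hs := by
    have hx' : Conn S (band θ R t) k (g⁻¹ * x) := by
      rw [← conn_band_smul hθ g, mul_inv_cancel_left]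
      exact hx
    rw [Set.mem_ofPred_eq, ← mul_assoc, h.in_next _ hx' s hs, mul_assoc, hθ, char_inv hθ]
    constructor <;> intro <;> linarith
  out x hx s hs := by
    have hx' : ¬ Conn S (band θ R t) k (g⁻¹ * x) := by
      rw [← conn_band_smul hθ g, mul_inv_cancel_left]
      exact hx
    rw [Set.mem_ofPred_eq, Set.mem_ofPred_eq, ← mul_assoc]
    exact h.out _ hx' s hs

/-- going to a point at height `≥ t` does not leave the half-space -/
lemma half_up (h : IsHalf S θ R t k H) {y s : Γ} (hy : y ∈ H) (hs : s ∈ S)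
    (ht : t ≤ θ (y * s)) : y * s ∈ H := by
  by_cases hc : Conn S (band θ R t) k y
  · exact (h.in_next y hc s hs).2 ht
  · exact (h.out y hc s hs).2 hy

lemma half_down (h : IsHalf S θ R t k H) {y s : Γ} (hy : y ∉ H) (hs : s ∈ S)
    (ht : θ (y * s) < t) : y * s ∉ H := by
  by_cases hc : Conn S (band θ R t) k y
  · rw [h.in_next y hc s hs]
    exact not_le.2 ht
  · rw [h.out y hc s hs]
    exact hy

/-- an edge that does not cross the level does not cross the wall -/
lemma half_same (h : IsHalf S θ R t k H) {y s : Γ} (hs : s ∈ S)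
    (ht : t ≤ θ (y * s) ↔ t ≤ θ y) : y * s ∈ H ↔ y ∈ H := by
  by_cases hc : Conn S (band θ R t) k y
  · rw [h.in_next y hc s hs, h.in_self y hc, ht]
  · exact h.out y hc s hs

/-- The component of `k'` is on one side of the wall of `k`. -/
lemma half_side (h : IsHalf S θ R t k H)
    (hd : ∀ x, ¬ (Conn S (band θ R t) k x ∧ Conn S (band θ R t') k' x)) {x : Γ}
    (hx : Conn S (band θ R t') k' x) :
    (x ∈ H ↔ k' ∈ H) ∧ ∀ s ∈ S, (x * s ∈ H ↔ k' ∈ H) := by
  have h1 : ∀ x, Conn S (band θ R t') k' x → ¬ Conn S (band θ R t) k x := fun x hx hx' =>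
    hd x ⟨hx', hx⟩
  have h2 : x ∈ H ↔ k' ∈ H := by
    refine conn_ind (P := fun b => b ∈ H ↔ k' ∈ H) Iff.rfl ?_ hx
    intro b hb hbk s hs _
    rw [h.out b (h1 b hb) s hs, hbk]
  refine ⟨h2, fun s hs => ?_⟩
  rw [h.out x (h1 x hx) s hs, h2]

/-- nesting of two half-spaces of disjoint components -/
lemma half_nest (hS : GenSet S)
    (h : IsHalf S θ R t k H) (h' : IsHalf S θ R t' k' H')
    (hd : ∀ x, ¬ (Conn S (band θ R t) k x ∧ Conn S (band θ R t') k' x)) (x : Γ) :
    (x ∈ H ↔ k' ∈ H) ∨ (x ∈ H' ↔ k ∈ H') := by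
  have hd' : ∀ x, ¬ (Conn S (band θ R t') k' x ∧ Conn S (band θ R t) k x) := fun x hx =>
    hd x ⟨hx.2, hx.1⟩
  refine step_ind (P := fun x => (x ∈ H ↔ k' ∈ H) ∨ (x ∈ H' ↔ k ∈ H')) hS (x := k)
    (Or.inr Iff.rfl) ?_ x
  intro y hy s hs
  by_cases hc : Conn S (band θ R t) k y
  · exact Or.inr ((half_side h' hd' hc).2 s hs)
  · by_cases hc' : Conn S (band θ R t') k' y
    · exact Or.inl ((half_side h hd hc').2 s hs)
    · rw [h.out y hc s hs, h'.out y hc' s hs]
      exact hy

lemma disj_same (hS : GenSet S) (hc : ¬ Conn S (band θ R t) k k') (x : Γ) :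
    ¬ (Conn S (band θ R t) k x ∧ Conn S (band θ R t) k' x) := fun hx =>
  hc (conn_trans hx.1 (conn_symm hS.inv hx.2))

lemma disj_far (hfar : t + 2 * R < t') (x : Γ) :
    ¬ (Conn S (band θ R t) k x ∧ Conn S (band θ R t') k' x) := by
  rintro ⟨h1, h2⟩
  have h1 : band θ R t x := conn_right h1
  have h2 : band θ R t' x := conn_right h2
  unfold band at h1 h2
  rw [abs_le] at h1 h2
  linarith [h1.1, h1.2, h2.1, h2.2]

end half

end Vale.Agent.P260.H156
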