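import Vale.Agent.P260.H493.Defs

/-!
# P260, module M3b: an invariant mean from Folner's condition
-/

namespace Vale.Agent.P260.H156

open Filter Topology

section

variable {Γ : Type}

open Classical in
/-- the proportion of `A` in `F` -/
noncomputable def prop (A : Set Γ) (F : Finset Γ) : ℝ :=
  ((F.filter (· ∈ A)).card : ℝ) / F.card

lemma prop_nonneg (A : Set Γ) (F : Finset Γ) : 0 ≤ prop A F := by
  unfold prop
  positivity

open Classical in
lemma prop_le_one (A : Set Γ) (F : Finset Γ) : prop A F ≤ 1 := by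
  unfold prop
  apply div_le_one_of_le₀
  · exact_mod_cast Finset.card_le_card (Finset.filter_subset _ _)
  · positivity

lemma prop_univ {F : Finset Γ} (hF : F.Nonempty) : prop (Set.univ : Set Γ) F = 1 := by
  unfold prop
  have : (F.card : ℝ) ≠ 0 := by
    have := Finset.card_pos.2 hF
    positivity
  simp [this]

open Classical in
lemma prop_union {A B : Set Γ} (h : Disjoint A B) (F : Finset Γ) :
    prop (A ∪ B) F = prop A F + prop B F := by
  unfold prop
  rw [← add_div]
  congr 1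
  have h1 : F.filter (· ∈ A ∪ B) = F.filter (· ∈ A) ∪ F.filter (· ∈ B) := by
    ext x
    simp only [Finset.mem_filter, Finset.mem_union, Set.mem_union]
    tauto
  have h2 : ((F.filter (· ∈ A ∪ B)).card : ℝ) =
      (F.filter (· ∈ A)).card + (F.filter (· ∈ B)).card := by
    rw [h1, Finset.card_union_of_disjoint]
    · push_cast
      rfl
    · rw [Finset.disjoint_left]
      intro x hx hx'
      rw [Finset.mem_filter] at hx hx'
      exact Set.disjoint_left.1 h hx.2 hx'.2
  convert h2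

end

variable {Γ : Type} [Group Γ]

open Classical in
lemma prop_smul {A : Set Γ} {F : Finset Γ} (hF : F.Nonempty) {g : Γ} {ε : ℝ}
    (h : (((F.image fun x => g⁻¹ * x) \ F).card : ℝ) ≤ ε * F.card) :
    prop {y | g⁻¹ * y ∈ A} F ≤ prop A F + ε := by
  have hpos : (0 : ℝ) < F.card := by exact_mod_cast Finset.card_pos.2 hF
  unfold prop
  rw [div_add' _ _ _ hpos.ne', div_le_div_iff_of_pos_right hpos]
  have h1 : (F.filter (· ∈ {y | g⁻¹ * y ∈ A})).card ≤
      (F.filter (· ∈ A)).card + ((F.image fun x => g⁻¹ * x) \ F).card := by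
    have h2 : (F.filter (· ∈ {y | g⁻¹ * y ∈ A})).image (fun x => g⁻¹ * x) ⊆
        F.filter (· ∈ A) ∪ ((F.image fun x => g⁻¹ * x) \ F) := by
      intro z hz
      rw [Finset.mem_image] at hz
      obtain ⟨x, hx, rfl⟩ := hz
      rw [Finset.mem_filter] at hx
      have hxA : g⁻¹ * x ∈ A := hx.2
      by_cases hxF : g⁻¹ * x ∈ F
      · exact Finset.mem_union_left _ (Finset.mem_filter.2 ⟨hxF, hxA⟩)
      · refine Finset.mem_union_right _ (Finset.mem_sdiff.2 ⟨?_, hxF⟩)
        exact Finset.mem_image_of_mem _ hx.1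
    have h3 := Finset.card_le_card h2
    rw [Finset.card_image_of_injective _ (mul_right_injective g⁻¹)] at h3
    exact h3.trans (Finset.card_union_le _ _)
  have h4 : ((F.filter (· ∈ {y | g⁻¹ * y ∈ A})).card : ℝ) ≤
      (F.filter (· ∈ A)).card + ((F.image fun x => g⁻¹ * x) \ F).card := by
    exact_mod_cast h1
  linarith

/-- An amenable group has an invariant mean. -/
theorem exists_mean (hΓ : Folner Γ) : ∃ μ : Set Γ → ℝ, μ Set.univ = 1 ∧ (∀ A, 0 ≤ μ A) ∧
    (∀ A B, Disjoint A B → μ (A ∪ B) = μ A + μ B) ∧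
    (∀ (g : Γ) (A : Set Γ), μ {y | g⁻¹ * y ∈ A} = μ A) := by
  classical
  choose F hFne hF using fun p : Finset Γ × ℕ =>
    hΓ p.1 (1 / ((p.2 : ℝ) + 1)) (by positivity)
  let U : Ultrafilter (Finset Γ × ℕ) := Ultrafilter.of atTop
  have hU : (U : Filter (Finset Γ × ℕ)) ≤ atTop := Ultrafilter.of_le _
  have hlim : ∀ A : Set Γ, ∃ x : ℝ, Tendsto (fun p => prop A (F p)) U (𝓝 x) := by
    intro A
    have h1 : ((U.map fun p => prop A (F p)) : Filter ℝ) ≤ 𝓟 (Set.Icc (0 : ℝ) 1) := by
      rw [Filter.le_principal_iff, Ultrafilter.coe_map]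
      exact Filter.mem_map.2 (Filter.univ_mem' fun p =>
        ⟨prop_nonneg A (F p), prop_le_one A (F p)⟩)
    obtain ⟨x, _, hx⟩ := isCompact_Icc.ultrafilter_le_nhds _ h1
    exact ⟨x, hx⟩
  choose μ hμ using hlim
  have hle : ∀ (g : Γ) (A : Set Γ), μ {y | g⁻¹ * y ∈ A} ≤ μ A := by
    intro g A
    have h1 : Tendsto (fun p : Finset Γ × ℕ => (1 / ((p.2 : ℝ) + 1))) U (𝓝 0) :=
      (tendsto_one_div_add_atTop_nhds_zero_nat.comp
        (tendsto_snd.mono_left (by rw [← prod_atTop_atTop_eq]) : Tendsto (Prod.snd : Finset Γ × ℕ → ℕ) atTop atTop)).mono_left hU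
    have h2 := (hμ A).add h1
    rw [add_zero] at h2
    refine le_of_tendsto_of_tendsto (hμ {y | g⁻¹ * y ∈ A}) h2 ?_
    have h3 : ∀ᶠ p : Finset Γ × ℕ in atTop, ({g⁻¹}, 0) ≤ p := eventually_ge_atTop _
    filter_upwards [hU h3] with p hp
    apply prop_smul (hFne p)
    exact hF p g⁻¹ (hp.1 (Finset.mem_singleton_self _))
  refine ⟨μ, ?_, ?_, ?_, ?_⟩
  · refine tendsto_nhds_unique (hμ Set.univ) ?_
    simp only [prop_univ (hFne _)]
    exact tendsto_const_nhds
  · intro A
    exact ge_of_tendsto' (hμ A) fun p => prop_nonneg A (F p)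
  · intro A B hAB
    refine tendsto_nhds_unique (hμ (A ∪ B)) ?_
    simp only [prop_union hAB]
    exact (hμ A).add (hμ B)
  · intro g A
    refine le_antisymm (hle g A) ?_
    have h1 := hle g⁻¹ {y | g⁻¹ * y ∈ A}
    have h2 : {y : Γ | g⁻¹⁻¹ * y ∈ {y | g⁻¹ * y ∈ A}} = A := by
      ext y
      simp
    rw [h2] at h1
    exact h1

end Vale.Agent.P260.H156
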